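import Vale.Agent.P011.H925.Full.BrHA

/-!
The clause on groups of type `A` from the statement in the older letters.
-/

open Module TensorProduct Topology

namespace Vale.Agent.P011.H925.Full

open Vale.Agent.P011

variable {k K A Ω : Type} [Field k] [Field K] [Algebra k K] [StarRing K] [Ring A] [StarRing A]
  [Algebra k A] [Algebra K A] [IsScalarTower k K A] [StarModule K A] [Field Ω] [Algebra K Ω] {n : ℕ}

omit [Field Ω] [Algebra K Ω] in
/-- The hypotheses in the older letters. -/
theorem Anis.anis (h : Anis k K A n) : H738.Anis k K A n :=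
  { fixed := h.fixed
    star_ne := h.star_ne
    central := h.central
    simple := h.simple
    finrank_eq := h.rank
    anisotropic := h.aniso }

/-- The clause on groups of type `A`. -/
theorem clauseA (h : Anis k K A n) {f : A →ₐ[K] Matrix (Fin n) (Fin n) Ω}
    (hf : ∃ δ : H732F.GK f →* H732F.HA A n (H732F.Adiv k K A), H732F.IsDiagonal δ ∧
      DenseRange δ ∧ ∀ N : Subgroup (H732F.GK f), N.index ≠ 0 → H732F.IsOpenPreimage δ N) :
    ∃ δ : GK f →* HA k K A n, (∀ g, Diag g.1.1 (δ g)) ∧ Q1 δ :=
  q1_of (st := stLin h.fixed) (fun _ => rfl) hf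

end Vale.Agent.P011.H925.Full
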