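import Vale.Agent.P011.H925.Full.BrLoc

/-!
The group `H_A`, the diagonal map and the main clause in the two descriptions.
-/

open Module TensorProduct Topology

namespace Vale.Agent.P011.H925.Full

open Vale.Agent.P011.H738 (Place)
open Vale.Agent.P011

section

variable {k K A : Type} [Field k] [Field K] [Ring A] [StarRing A] [Algebra k K] [Algebra k A]
  [Algebra K A]

omit [StarRing A] [Algebra k A] in
theorem mem_adiv (w : Place k) : w ∈ H732F.Adiv k K A ↔ Div k K A (Kv w.abv) := Iff.rfl

/-- The place in `A(G)`. -/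
def AG.pl (v : AG k K A) : H732F.Adiv k K A :=
  ⟨toPlace v.abv ⟨v.nonarch, v.normalized⟩, v.div⟩

/-- The absolute value of a place in `A(G)`. -/
def plAG (w : H732F.Adiv k K A) : AG k K A :=
  ⟨w.1.abv, w.1.nonarch, (isPlace_abv w.1).2, w.2⟩

variable (k K A) in
/-- The groups `H_A` are the same. -/
noncomputable def haEquiv (n : ℕ) : H732F.HA A n (H732F.Adiv k K A) ≃* HA k K A n where
  toFun x := fun v => locEquiv v.pl.1 n (x v.pl)
  invFun y := fun w => (locEquiv w.1 n).symm (y (plAG w))
  left_inv x := by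
    funext w
    exact (locEquiv w.1 n).symm_apply_apply (x w)
  right_inv y := by
    funext v
    exact (locEquiv v.pl.1 n).apply_symm_apply (y v)
  map_mul' x y := by
    funext v
    exact map_mul (locEquiv v.pl.1 n) (x v.pl) (y v.pl)

theorem haEquiv_continuous (n : ℕ) : Continuous (haEquiv k K A n) :=
  continuous_pi fun v => (locEquiv_continuous v.pl.1).comp (continuous_apply v.pl)

theorem haEquiv_symm_continuous (n : ℕ) {st : A →ₗ[k] A} (hst : ∀ y, st y = star y) :
    Continuous (haEquiv k K A n).symm :=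
  continuous_pi fun w => (locEquiv_symm_continuous w.1 hst).comp (continuous_apply (plAG w))

end

section

variable {K A Ω : Type} [Field K] [Ring A] [StarRing A] [Algebra K A] [Field Ω] [Algebra K Ω]
  {n : ℕ}

theorem mem_GK {f : A →ₐ[K] Matrix (Fin n) (Fin n) Ω} {g : unitary A} :
    g ∈ GK f ↔ (f g.1).det = 1 := Iff.rfl

/-- The groups `G(k)` are the same. -/
noncomputable def gkEquiv (f : A →ₐ[K] Matrix (Fin n) (Fin n) Ω) : GK f ≃* H732F.GK f where
  toFun g := ⟨⟨g.1.1, star g.1.1, g.1.2.2, g.1.2.1⟩, g.1.2.2, g.2⟩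
  invFun u := ⟨⟨u.1.1, by
    have h1 : (u.1 : A) * star (u.1 : A) = 1 := u.2.1
    have h2 : star (u.1 : A) = ((u.1⁻¹ : Aˣ) : A) := (Units.inv_eq_of_mul_eq_one_right h1).symm
    exact ⟨by rw [h2, Units.inv_mul], h1⟩⟩, u.2.2⟩
  left_inv g := rfl
  right_inv u := by
    refine Subtype.ext (Units.ext rfl)
  map_mul' g h := by
    refine Subtype.ext (Units.ext rfl)

theorem gkEquiv_val (f : A →ₐ[K] Matrix (Fin n) (Fin n) Ω) (g : GK f) :
    (gkEquiv f g).val = g.1.1 := rfl

end

section

variable {k K A Ω : Type} [Field k] [Field K] [Algebra k K] [Ring A] [StarRing A] [Algebra k A]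
  [Algebra K A] [Field Ω] [Algebra K Ω] {n : ℕ}

/-- The main clause in the new letters. -/
theorem q1_of {st : A →ₗ[k] A} (hst : ∀ y, st y = star y)
    {f : A →ₐ[K] Matrix (Fin n) (Fin n) Ω}
    (h : ∃ δ : H732F.GK f →* H732F.HA A n (H732F.Adiv k K A), H732F.IsDiagonal δ ∧
      DenseRange δ ∧ ∀ N : Subgroup (H732F.GK f), N.index ≠ 0 → H732F.IsOpenPreimage δ N) :
    ∃ δ : GK f →* HA k K A n, (∀ g, Diag g.1.1 (δ g)) ∧ Q1 δ := by
  obtain ⟨δ, h1, h2, h3⟩ := h
  refine ⟨((haEquiv k K A n).toMonoidHom.comp δ).comp (gkEquiv f).toMonoidHom, ?_, ?_, ?_⟩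
  · intro g v
    exact h1 (gkEquiv f g) v.pl
  · have h4 : DenseRange (haEquiv k K A n) := (haEquiv k K A n).surjective.denseRange
    have h5 : DenseRange fun g : H732F.GK f => haEquiv k K A n (δ g) :=
      h4.comp h2 (haEquiv_continuous n)
    have h6 : Set.range (fun g : GK f => haEquiv k K A n (δ (gkEquiv f g))) =
        Set.range fun g : H732F.GK f => haEquiv k K A n (δ g) :=
      (gkEquiv f).surjective.range_comp fun g : H732F.GK f => haEquiv k K A n (δ g)
    change Dense (Set.range (fun g : GK f => haEquiv k K A n (δ (gkEquiv f g))))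
    rw [h6]
    exact h5
  · intro N hN
    have h4 : (N.comap (gkEquiv f).symm.toMonoidHom).index ≠ 0 := by
      rw [Subgroup.index_comap_of_surjective _ (gkEquiv f).symm.surjective]
      exact hN
    obtain ⟨W, hW1, hW2, hW3⟩ := h3 _ h4
    refine ⟨W.comap (haEquiv k K A n).symm.toMonoidHom, ?_, ?_, ?_⟩
    · exact hW1.preimage (haEquiv_symm_continuous n hst)
    · ext g
      have h5 : gkEquiv f g ∈ N.comap (gkEquiv f).symm.toMonoidHom ↔ g ∈ N := by
        rw [Subgroup.mem_comap]
        change (gkEquiv f).symm (gkEquiv f g) ∈ N ↔ _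
        rw [MulEquiv.symm_apply_apply]
      rw [← h5, hW2, Subgroup.mem_comap, Subgroup.mem_comap, Subgroup.mem_comap]
      change _ ↔ (haEquiv k K A n).symm (haEquiv k K A n (δ (gkEquiv f g))) ∈ W
      rw [MulEquiv.symm_apply_apply]
    · intro hnorm
      have h5 : (N.comap (gkEquiv f).symm.toMonoidHom).Normal := hnorm.comap _
      exact (hW3 h5).comap _

end

section

variable {k K A : Type} [Field k] [Field K] [Algebra k K] [StarRing K] [Ring A] [StarRing A]
  [Algebra k A] [Algebra K A] [IsScalarTower k K A] [StarModule K A]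

/-- The involution is linear over the fixed field. -/
noncomputable def stLin (hfix : ∀ x : K, star x = x ↔ x ∈ Set.range (algebraMap k K)) :
    A →ₗ[k] A where
  toFun := star
  map_add' := star_add
  map_smul' c y := by
    rw [← algebraMap_smul K c y, star_smul, (hfix _).2 ⟨c, rfl⟩, algebraMap_smul]
    rfl

end

end Vale.Agent.P011.H925.Full
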