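import Vale.Agent.P011.H925.Full.BrPlace

/-!
The groups `G(k_v)` in the two descriptions.
-/

open Module TensorProduct Topology

namespace Vale.Agent.P011.H925.Full

open Vale.Agent.P011.H738 (Place)
open Vale.Agent.P011

variable {k A : Type} [Field k] [Ring A] [StarRing A] [Algebra k A] (w : Place k)

theorem isSU_iff {n : ℕ} {x : (H732F.Av k A w)ˣ} :
    SU (k := k) (A := A) (L := Kv w.abv) n x.1 ↔ H732F.InGv A n x := by
  constructor
  · rintro ⟨h1, h2⟩
    refine ⟨fun σ hσ => ?_, fun Ω i₁ i₂ F => @h2 Ω i₁ i₂ F⟩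
    refine h1 σ.toAddMonoidHom fun c y => ?_
    have h3 : (c ⊗ₜ[k] y : Kv w.abv ⊗[k] A) = c • ((1 : Kv w.abv) ⊗ₜ[k] y) := by
      rw [TensorProduct.smul_tmul', smul_eq_mul, mul_one]
    have h4 : (c ⊗ₜ[k] star y : Kv w.abv ⊗[k] A) = c • ((1 : Kv w.abv) ⊗ₜ[k] star y) := by
      rw [TensorProduct.smul_tmul', smul_eq_mul, mul_one]
    change σ (c ⊗ₜ[k] y : Kv w.abv ⊗[k] A) = _
    rw [h3, h4]
    refine (σ.map_smul c _).trans ?_
    exact congrArg (fun z : Kv w.abv ⊗[k] A => c • z) (hσ y)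
  · rintro ⟨h1, h2⟩
    refine ⟨fun σ hσ => ?_, fun Ω i₁ i₂ F => @h2 Ω i₁ i₂ F⟩
    have hlin : ∀ (c : Kv w.abv) (z : Kv w.abv ⊗[k] A), σ (c • z) = c • σ z := by
      intro c z
      induction z using TensorProduct.induction_on with
      | zero => rw [smul_zero, map_zero, smul_zero]
      | tmul a y => rw [TensorProduct.smul_tmul', hσ, hσ, TensorProduct.smul_tmul']
      | add z z' h h' => rw [smul_add, map_add, h, h', map_add, smul_add]
    exact h1 { σ with map_smul' := hlin } fun y => hσ 1 y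

theorem closure_eq {n : ℕ} :
    Subgroup.closure {x : (Kv w.abv ⊗[k] A)ˣ | SU n x.1} = H732F.Gv A w n := by
  have h : {x : (Kv w.abv ⊗[k] A)ˣ | SU n x.1} = (H732F.Gv A w n : Set (H732F.Av k A w)ˣ) := by
    ext x
    exact isSU_iff w
  exact (congrArg Subgroup.closure h).trans (Subgroup.closure_eq (H732F.Gv A w n))

/-- The groups of the elements of `G(k_v)` are the same. -/
noncomputable def locEquiv (n : ℕ) : H732F.GTop A w n ≃* GP k A (Kv w.abv) n :=
  MulEquiv.subgroupCongr (closure_eq w).symm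

theorem locEquiv_val {n : ℕ} (x : H732F.GTop A w n) :
    ((locEquiv w n x).1.1 : Kv w.abv ⊗[k] A) = x.val := rfl

theorem locEquiv_symm_val {n : ℕ} (x : GP k A (Kv w.abv) n) :
    ((locEquiv w n).symm x).val = (x.1.1 : Kv w.abv ⊗[k] A) := rfl

/-- The extension of the involution. -/
noncomputable def sig (st : A →ₗ[k] A) : Kv w.abv ⊗[k] A →ₗ[Kv w.abv] Kv w.abv ⊗[k] A :=
  TensorProduct.AlgebraTensorModule.map LinearMap.id st

omit [StarRing A] in
theorem sig_tmul (st : A →ₗ[k] A) (c : Kv w.abv) (y : A) :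
    sig w st (c ⊗ₜ[k] y) = c ⊗ₜ[k] st y := by
  rw [sig, TensorProduct.AlgebraTensorModule.map_tmul, LinearMap.id_apply]

theorem locEquiv_continuous {n : ℕ} :
    Continuous (locEquiv w n : H732F.GTop A w n → GP k A (Kv w.abv) n) := by
  refine continuous_induced_rng.2 ?_
  exact (Units.continuous_val : Continuous (Units.val : (H732F.Av k A w)ˣ → H732F.Av k A w)).comp
    (continuous_subtype_val : Continuous
      (Subtype.val : {x // x ∈ H732F.Gv A w n} → (H732F.Av k A w)ˣ))

theorem val_mul_sig {n : ℕ} {st : A →ₗ[k] A} (hst : ∀ y, st y = star y)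
    (x : GP k A (Kv w.abv) n) : x.1.1 * sig w st x.1.1 = 1 := by
  have h : SU (k := k) (A := A) (L := Kv w.abv) n x.1.1 :=
    (isSU_iff w).2 ((locEquiv w n).symm x).2
  refine h.1 (sig w st).toAddMonoidHom fun c y => ?_
  change sig w st (c ⊗ₜ[k] y) = _
  rw [sig_tmul, hst]

theorem locEquiv_symm_continuous {n : ℕ} {st : A →ₗ[k] A} (hst : ∀ y, st y = star y) :
    Continuous ((locEquiv w n).symm : GP k A (Kv w.abv) n → H732F.GTop A w n) := by
  refine continuous_induced_rng.2 ?_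
  refine Units.continuous_iff.2 ⟨?_, ?_⟩
  · exact continuous_induced_dom
  · have h1 : ∀ x : GP k A (Kv w.abv) n,
        (((((locEquiv w n).symm x).1 : (H732F.Av k A w)ˣ)⁻¹ : (H732F.Av k A w)ˣ) :
          H732F.Av k A w) = sig w st x.1.1 := by
      intro x
      exact Units.inv_eq_of_mul_eq_one_right (val_mul_sig w hst x)
    have h2 : @Continuous _ _ (moduleTopology (Kv w.abv) (Kv w.abv ⊗[k] A))
        (moduleTopology (Kv w.abv) (Kv w.abv ⊗[k] A)) (sig w st) := by
      let := moduleTopology (Kv w.abv) (Kv w.abv ⊗[k] A)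
      have : IsModuleTopology (Kv w.abv) (Kv w.abv ⊗[k] A) := ⟨rfl⟩
      have := IsModuleTopology.toContinuousAdd (Kv w.abv) (Kv w.abv ⊗[k] A)
      exact IsModuleTopology.continuous_of_linearMap _
    refine Continuous.congr ?_ fun x => (h1 x).symm
    exact @Continuous.comp _ _ _ _ (moduleTopology (Kv w.abv) (Kv w.abv ⊗[k] A))
      (moduleTopology (Kv w.abv) (Kv w.abv ⊗[k] A)) _ _ h2 continuous_induced_dom

end Vale.Agent.P011.H925.Full
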