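import Vale.Agent.P011.H925.Full.DefsA
import Vale.Agent.P011.H732.FSt

/-!
Normalized absolute values and places.
-/

open Module TensorProduct Topology

namespace Vale.Agent.P011.H925.Full

open Vale.Agent.P011.H738 (Place integers maxIdeal)

variable {k : Type} [Field k]

/-- The absolute value is that of a nonarchimedean place, normalized: `S` represents the residue
classes, and the nonzero absolute values are the powers of the number of its elements. -/
def IsPlace (v : AbsoluteValue k ℝ) : Prop :=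
  (∀ x y, v (x + y) ≤ max (v x) (v y)) ∧ ∃ S : Finset k, (∀ s ∈ S, v s ≤ 1) ∧
    (∀ x, v x ≤ 1 → ∃! s, s ∈ S ∧ v (x - s) < 1) ∧ (∃ x, v x = S.card) ∧
    ∀ x, x ≠ 0 → ∃ m : ℤ, v x = S.card ^ m

theorem mem_integers {a : AbsoluteValue k ℝ} (h : ∀ x y, a (x + y) ≤ max (a x) (a y)) {x : k} :
    x ∈ integers a h ↔ a x ≤ 1 := Iff.rfl

theorem mem_maxIdeal {a : AbsoluteValue k ℝ} (h : ∀ x y, a (x + y) ≤ max (a x) (a y))
    {x : integers a h} : x ∈ maxIdeal a h ↔ a (x : k) < 1 := Iff.rfl

/-- The place of a normalized absolute value. -/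
theorem exists_place {v : AbsoluteValue k ℝ} (hv : IsPlace v) :
    Finite (integers v hv.1 ⧸ maxIdeal v hv.1) ∧
    (∃ x, v x = Nat.card (integers v hv.1 ⧸ maxIdeal v hv.1)) ∧
    ∀ x, x ≠ 0 → ∃ m : ℤ, v x = Nat.card (integers v hv.1 ⧸ maxIdeal v hv.1) ^ m := by
  obtain ⟨S, hS1, hS2, hS3, hS4⟩ := hv.2
  have hbij : Function.Bijective (fun s : S =>
      (Ideal.Quotient.mk (maxIdeal v hv.1) ⟨s.1, hS1 s.1 s.2⟩ :
        integers v hv.1 ⧸ maxIdeal v hv.1)) := by
    constructor
    · intro s t hst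
      have h1 : v (s.1 - t.1) < 1 := by
        have := (Ideal.Quotient.eq).1 hst
        exact this
      obtain ⟨u, _, hu2⟩ := hS2 s.1 (hS1 s.1 s.2)
      have hs : s.1 = u := hu2 s.1 ⟨s.2, by rw [sub_self, map_zero]; exact zero_lt_one⟩
      have ht : t.1 = u := hu2 t.1 ⟨t.2, h1⟩
      exact Subtype.ext (hs.trans ht.symm)
    · intro q
      obtain ⟨x, rfl⟩ := Ideal.Quotient.mk_surjective q
      obtain ⟨u, ⟨hu1, hu3⟩, _⟩ := hS2 x.1 x.2
      refine ⟨⟨u, hu1⟩, ?_⟩
      refine (Ideal.Quotient.eq).2 ?_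
      change v (u - x.1) < 1
      rwa [AbsoluteValue.map_sub]
  have hcard : Nat.card (integers v hv.1 ⧸ maxIdeal v hv.1) = S.card := by
    rw [← Nat.card_congr (Equiv.ofBijective _ hbij), Nat.card_eq_fintype_card, Fintype.card_coe]
  rw [hcard]
  exact ⟨Finite.of_surjective _ hbij.2, hS3, hS4⟩

/-- The absolute value of a place is normalized. -/
theorem isPlace_abv (w : Place k) : IsPlace w.abv := by
  classical
  obtain ⟨hfin, h1, h2⟩ := w.normalized
  have := Fintype.ofFinite (integers w.abv w.nonarch ⧸ maxIdeal w.abv w.nonarch)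
  let o : (integers w.abv w.nonarch ⧸ maxIdeal w.abv w.nonarch) → integers w.abv w.nonarch :=
    Function.surjInv Ideal.Quotient.mk_surjective
  have ho : ∀ q, Ideal.Quotient.mk _ (o q) = q := Function.surjInv_eq _
  have hinj : Function.Injective fun q => (o q : k) := by
    intro q r hqr
    have h3 : o q = o r := Subtype.ext hqr
    rw [← ho q, ← ho r, h3]
  have hcard : (Finset.univ.image fun q => (o q : k)).card =
      Nat.card (integers w.abv w.nonarch ⧸ maxIdeal w.abv w.nonarch) := by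
    rw [Finset.card_image_of_injective _ hinj, Finset.card_univ, Nat.card_eq_fintype_card]
  refine ⟨w.nonarch, Finset.univ.image fun q => (o q : k), ?_, ?_, ?_, ?_⟩
  · intro s hs
    obtain ⟨q, _, rfl⟩ := Finset.mem_image.1 hs
    exact (o q).2
  · intro x hx
    refine ⟨(o (Ideal.Quotient.mk _ ⟨x, hx⟩) : k),
      ⟨Finset.mem_image_of_mem _ (Finset.mem_univ _), ?_⟩, ?_⟩
    · have h3 := (Ideal.Quotient.eq).1 (ho (Ideal.Quotient.mk _ ⟨x, hx⟩))
      have h4 : w.abv ((o (Ideal.Quotient.mk _ ⟨x, hx⟩) : k) - x) < 1 := h3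
      rwa [AbsoluteValue.map_sub] at h4
    · rintro s ⟨hs, hs'⟩
      obtain ⟨q, _, rfl⟩ := Finset.mem_image.1 hs
      have h3 : (Ideal.Quotient.mk (maxIdeal w.abv w.nonarch) ⟨x, hx⟩) = q := by
        rw [← ho q]
        exact (Ideal.Quotient.eq).2 hs'
      change (o q : k) = _
      rw [h3]
  · rw [hcard]
    exact h1
  · rw [hcard]
    exact h2

/-- The place of a normalized absolute value. -/
def toPlace (v : AbsoluteValue k ℝ) (hv : IsPlace v) : Place k :=
  ⟨v, hv.1, exists_place hv⟩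

theorem toPlace_abv (v : AbsoluteValue k ℝ) (hv : IsPlace v) : (toPlace v hv).abv = v := rfl

theorem toPlace_eq (w : Place k) : toPlace w.abv (isPlace_abv w) = w := rfl

end Vale.Agent.P011.H925.Full
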