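import Mathlib.Analysis.Normed.Field.WithAbs
import Mathlib.FieldTheory.RatFunc.Basic
import Mathlib.LinearAlgebra.Matrix.Determinant.Basic
import Mathlib.RingTheory.TensorProduct.Maps
import Mathlib.Topology.Algebra.Module.ModuleTopology
import Mathlib.Algebra.Central.Defs
import Mathlib.RingTheory.SimpleRing.Basic
import Mathlib.Algebra.Star.Unitary
import Mathlib.NumberTheory.NumberField.Basic

/-!
The Margulis-Platonov conjecture for the special unitary group of a central simple algebra with an
anisotropic involution of the second kind over a global field: the definitions.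
-/

open Module TensorProduct Topology

namespace Vale.Agent.P011.H925.Full

/-- The hypotheses: `A` is central simple of degree `n ≥ 3` over `K`, with an anisotropic involution
of the second kind whose fixed field `k` is a global field, i.e. a number field or a finite
extension of the field of rational functions in one variable over a finite field; if `k` is a number
field, `A` is no matrix algebra over `K`. -/
structure Anis (k K A : Type) [Field k] [Field K] [Algebra k K] [StarRing K] [Ring A]
    [StarRing A] [Algebra K A] (n : ℕ) : Prop where
  global : NumberField k ∨ ∃ (F : Type) (_ : Field F) (_ : Finite F) (_ : Algebra (RatFunc F) k),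
    FiniteDimensional (RatFunc F) k
  fixed : ∀ x : K, star x = x ↔ x ∈ Set.range (algebraMap k K)
  star_ne : ∃ x : K, star x ≠ x
  central : Algebra.IsCentral K A
  simple : IsSimpleRing A
  le : 3 ≤ n
  rank : finrank K A = n ^ 2
  aniso : ∀ x : A, star x * x = 0 → x = 0
  nonsplit : NumberField k → ¬ ∃ m : ℕ, Nonempty (A ≃ₐ[K] Matrix (Fin m) (Fin m) K)

section

variable {k : Type} [Field k] (v : AbsoluteValue k ℝ)

/-- The completion of `k`. -/
def Kv : Type := v.Completion

noncomputable instance : CommRing (Kv v) := UniformSpace.Completion.commRing (WithAbs v)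

noncomputable instance : TopologicalSpace (Kv v) :=
  (inferInstance : TopologicalSpace v.Completion)

noncomputable instance : Algebra k (Kv v) :=
  (inferInstance : Algebra k v.Completion)

end

/-- The field `K` embeds in the extension `L` of `k` and `L ⊗_K A` is a division algebra. -/
def Div (k K A L : Type) [Field k] [Field K] [Ring A] [Algebra k K] [Algebra K A] [CommRing L]
    [Algebra k L] : Prop :=
  ∃ φ : K →ₐ[k] L, letI := (φ : K →+* L).toAlgebra
    ∀ x : L ⊗[K] A, x ≠ 0 → IsUnit x

/-- The set `A(G)` of the nonarchimedean places `v` of `k` such that `K` embeds in `k_v` and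
`k_v ⊗_K A` is a division algebra. A place is given by its normalized absolute value: the finite set
`S` represents the residue classes, and the nonzero absolute values are the integral powers of the
number of its elements. -/
structure AG (k K A : Type) [Field k] [Field K] [Ring A] [Algebra k K] [Algebra K A] where
  abv : AbsoluteValue k ℝ
  nonarch : ∀ x y, abv (x + y) ≤ max (abv x) (abv y)
  normalized : ∃ S : Finset k, (∀ s ∈ S, abv s ≤ 1) ∧
    (∀ x, abv x ≤ 1 → ∃! s, s ∈ S ∧ abv (x - s) < 1) ∧ (∃ x, abv x = S.card) ∧
    ∀ x, x ≠ 0 → ∃ m : ℤ, abv x = S.card ^ m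
  div : Div k K A (Kv abv)

section

variable {k A L : Type} [Field k] [Ring A] [StarRing A] [Algebra k A] [CommRing L] [Algebra k L]

/-- The element of `L ⊗ A` is unitary for the extension of the involution and of reduced norm one:
the determinant of its image is one under every homomorphism of `L`-algebras to the `n × n` matrices
over a field, where `n` is the degree of `A`. -/
def SU (n : ℕ) (x : L ⊗[k] A) : Prop :=
  (∀ σ : L ⊗[k] A →+ L ⊗[k] A, (∀ c y, σ (c ⊗ₜ y) = c ⊗ₜ star y) → x * σ x = 1) ∧
  ∀ (Ω : Type) [Field Ω] [Algebra L Ω] (F : L ⊗[k] A →ₐ[L] Matrix (Fin n) (Fin n) Ω),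
    (F x).det = 1

variable (k A L) in
/-- The group `G(L)` of the unitary elements of reduced norm one of `L ⊗ A`. -/
def GP (n : ℕ) : Type := Subgroup.closure {x : (L ⊗[k] A)ˣ | SU n x.1}

noncomputable instance (n : ℕ) : Group (GP k A L n) := Subgroup.toGroup _

/-- `G(L)` has the topology of a subspace of the `L`-module `L ⊗ A`. -/
noncomputable instance (n : ℕ) [TopologicalSpace L] : TopologicalSpace (GP k A L n) :=
  .induced (fun x => x.1.1) (moduleTopology L (L ⊗[k] A))

/-- The element `x` of `G(L)` is the image of the element `y` of `A`. -/
def Img {n : ℕ} (y : A) (x : GP k A L n) : Prop := x.1.1 = 1 ⊗ₜ y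

end

/-- The group `G(k)` of the unitary elements of reduced norm one of `A`; the reduced norm is
computed with the splitting `f`. -/
def GK {K A Ω : Type} [Field K] [Ring A] [StarRing A] [Algebra K A] [Field Ω] [Algebra K Ω]
    {n : ℕ} (f : A →ₐ[K] Matrix (Fin n) (Fin n) Ω) : Subgroup (unitary A) :=
  ((Matrix.detMonoidHom.comp (f : A →* Matrix (Fin n) (Fin n) Ω)).comp (unitary A).subtype).ker

section

variable (k K A : Type) [Field k] [Field K] [Ring A] [StarRing A] [Algebra k K] [Algebra k A]
  [Algebra K A]

/-- The group `H_A`, the product of the groups `G(k_v)`, `v` in `A(G)`. -/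
def HA (n : ℕ) : Type := ∀ v : AG k K A, GP k A (Kv v.abv) n

noncomputable instance (n : ℕ) : Group (HA k K A n) := Pi.group

noncomputable instance (n : ℕ) : TopologicalSpace (HA k K A n) := Pi.topologicalSpace

variable {k K A} in
/-- The element `x` of `H_A` is the image of the element `y` of `A` under the diagonal map. -/
def Diag {n : ℕ} (y : A) (x : HA k K A n) : Prop := ∀ v, Img y (x v)

end

/-- The homomorphism has dense image, and the subgroups of finite index are the preimages of open
subgroups, of normal ones if they are normal. -/
def Q1 {G H : Type} [Group G] [Group H] [TopologicalSpace H] (δ : G →* H) : Prop :=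
  DenseRange δ ∧ ∀ N : Subgroup G, N.index ≠ 0 → ∃ W : Subgroup H,
    IsOpen (W : Set H) ∧ N = W.comap δ ∧ (N.Normal → W.Normal)

end Vale.Agent.P011.H925.Full
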