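import Vale.Agent.P011.H925.Full.Asm
import Vale.Agent.P011.H305.Odd.FinF

/-!
The clause on groups of type `A` over global function fields of characteristic not two.
-/

open Module

namespace Vale.Agent.P011.H925.Full

open Vale.Agent.P011

variable {k K A Ω : Type} [Field k] [Field K] [Algebra k K] [StarRing K] [Ring A] [StarRing A]
  [Algebra k A] [Algebra K A] [IsScalarTower k K A] [StarModule K A] [Field Ω] [Algebra K Ω] {n : ℕ}

/-- The clause on groups of type `A` over function fields of characteristic not two in the older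
letters. -/
theorem old_ff (hk : H738.IsGlobalFunctionField k) (hA : H738.Anis k K A n) (hn : 3 ≤ n)
    (h2 : (2 : k) ≠ 0) (f : A →ₐ[K] Matrix (Fin n) (Fin n) Ω) :
    ∃ δ : H732F.GK f →* H732F.HA A n (H732F.Adiv k K A), H732F.IsDiagonal δ ∧
      DenseRange δ ∧ ∀ N : Subgroup (H732F.GK f), N.index ≠ 0 → H732F.IsOpenPreimage δ N := by
  obtain ⟨δ, h1, h3, h4⟩ := H305.AllF.all_odd hk hA hn h2 f
  exact ⟨δ, h1, h3, fun N hN => (h4 N hN).1⟩

end Vale.Agent.P011.H925.Full
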