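import Vale.Agent.P011.H925.Full.Asm
import Vale.Agent.P011.H973.Full.TypeANF
import Vale.Agent.P011.H984.Full.NFdiv
import Vale.Agent.P011.H272.MPAll
import Vale.Agent.P011.H627.Odd.SolvOdd
import Vale.Agent.P011.H976.Tow.Odd

/-!
The clause on groups of type `A` over number fields.
-/

open Module

namespace Vale.Agent.P011.H925.Full

open Vale.Agent.P011

/-- The Margulis-Platonov statement for division algebras over number fields, all degrees. -/
theorem mp_all {n : ℕ} (hn : 3 ≤ n) : Pow.MP n :=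
  H272.mp_all_of (fun _ h3 ho => H627.Odd.solv_odd h3 ho)
    (fun _ h3 ho h => H976.Tow.mp_double_odd h3 ho h) hn

variable {k K A Ω : Type} [Field k] [Field K] [Algebra k K] [StarRing K] [Ring A] [StarRing A]
  [Algebra k A] [Algebra K A] [IsScalarTower k K A] [StarModule K A] [Field Ω] [Algebra K Ω] {n : ℕ}

/-- The clause on groups of type `A` over number fields in the older letters. -/
theorem old_nf [NumberField k] (hA : H738.Anis k K A n) (hn : 3 ≤ n)
    (hns : ¬ ∃ m : ℕ, Nonempty (A ≃ₐ[K] Matrix (Fin m) (Fin m) K))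
    (f : A →ₐ[K] Matrix (Fin n) (Fin n) Ω) :
    ∃ δ : H732F.GK f →* H732F.HA A n (H732F.Adiv k K A), H732F.IsDiagonal δ ∧
      DenseRange δ ∧ ∀ N : Subgroup (H732F.GK f), N.index ≠ 0 → H732F.IsOpenPreimage δ N := by
  by_cases hdiv : ∃ x : A, x ≠ 0 ∧ ¬ IsUnit x
  · obtain ⟨δ, h1, h2, h3⟩ := H984.clause_div hA (by omega) hdiv hns f
    exact ⟨δ, h1, h2, fun N hN => (h3 N hN).1⟩
  · exact H973.Full.typeA_nf_of hA hn f (mp_all hn) fun h => (hdiv h).elim

/-- The clause on groups of type `A` over number fields. -/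
theorem clauseA_nf (hk : NumberField k) (h : Anis k K A n)
    (f : A →ₐ[K] Matrix (Fin n) (Fin n) Ω) :
    ∃ δ : GK f →* HA k K A n, (∀ g, Diag g.1.1 (δ g)) ∧ Q1 δ :=
  clauseA h (old_nf h.anis h.le (h.nonsplit hk) f)

end Vale.Agent.P011.H925.Full
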